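import Vale.Agent.P140W36.Rows
import Mathlib.Analysis.SpecialFunctions.Gaussian.FourierTransform
import Mathlib.Analysis.SpecialFunctions.Log.NegMulLog

/-! # P140W96: the entropy inequality (row ENT) -/

open MeasureTheory Set
open scoped ENNReal

namespace Vale.Agent.P140W36

open Vale.Agent.P122W36 (R3)
open Vale.Agent.P140

namespace E96

theorem c_pos : 0 < (2 * Real.pi) ^ (-(3 / 2) : ℝ) := Real.rpow_pos_of_pos (by positivity) _

theorem M_pos (v : R3) : 0 < M v := mul_pos c_pos (Real.exp_pos _)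

theorem M_meas : Measurable M := by unfold M; fun_prop

theorem M_int : Integrable fun p : Om => M p.2 := by
  have h := (GaussianFourier.integrable_cexp_neg_mul_sq_norm_add (V := R3) (b := 1 / 2)
    (by norm_num) 0 0).norm.const_mul ((2 * Real.pi) ^ (-(3 / 2) : ℝ))
  have h1 : Integrable M := h.congr (Filter.Eventually.of_forall fun v => by
    simp only [M, Complex.norm_exp]
    congr 2
    norm_num [← Complex.ofReal_pow]
    ring)
  exact h1.comp_snd _

theorem ent_nonneg {f : Om → ℝ} (hf : ∀ p, 0 ≤ f p) (p : Om) : 0 ≤ ent f p := by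
  have hM := M_pos p.2
  have h := mul_le_mul_of_nonneg_left
    (Real.self_sub_one_le_mul_log (div_nonneg (hf p) hM.le)) hM.le
  rw [mul_sub, ← mul_assoc, mul_div_cancel₀ _ hM.ne'] at h
  unfold ent
  linarith

theorem ent_meas {f : Om → ℝ} (hf : Measurable f) : Measurable (ent f) := by
  have := M_meas
  unfold ent
  fun_prop

theorem ent_le {f : Om → ℝ} (hf : ∀ p, 0 ≤ f p) (p : Om) :
    ent f p ≤ (1 + |Real.log ((2 * Real.pi) ^ (-(3 / 2) : ℝ))|) * wt f p + M p.2 := by
  unfold ent wt
  rcases (hf p).eq_or_lt with h | h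
  · simp [← h]
  rw [Real.log_div h.ne' (M_pos _).ne']
  have h1 : Real.log (M p.2) = Real.log ((2 * Real.pi) ^ (-(3 / 2) : ℝ)) + -‖p.2‖ ^ 2 / 2 := by
    rw [M, Real.log_mul c_pos.ne' (Real.exp_pos _).ne', Real.log_exp]
  rw [h1]
  generalize Real.log ((2 * Real.pi) ^ (-(3 / 2) : ℝ)) = c
  have h2 : Real.log (f p) - (c + -‖p.2‖ ^ 2 / 2)
      ≤ (1 + |c|) * (1 + ‖p.2‖ ^ 2 + |Real.log (f p)|) := by
    have := le_abs_self (Real.log (f p))
    have := neg_abs_le c
    have : 0 ≤ |c| * (‖p.2‖ ^ 2 + |Real.log (f p)|) := by positivity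
    nlinarith [sq_nonneg ‖p.2‖]
  nlinarith [mul_le_mul_of_nonneg_left h2 h.le]

theorem int_of {g : Om → ℝ} (hm : Measurable g) (h0 : ∀ p, 0 ≤ g p)
    (h : ∫⁻ p, ENNReal.ofReal (g p) < ∞) : Integrable g :=
  ⟨hm.aestronglyMeasurable,
    (hasFiniteIntegral_iff_ofReal (Filter.Eventually.of_forall h0)).2 h⟩

end E96

open E96 in
theorem ent_row : ENT := by
  rintro ⟨hM, hc, -⟩ F0 F h
  have hr : ∀ f : Om → ℝ, Stt.relEntropy f = ∫⁻ p, ENNReal.ofReal (ent f p) := fun f => by
    simp only [Stt.relEntropy, ent, hM]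
  have hm : ∀ t, Measurable (F t) := fun t => h.measurable.comp measurable_prodMk_left
  have hw : Integrable (wt F0) := int_of (by have := h.datum_measurable; unfold wt; fun_prop)
    (fun p => mul_nonneg (h.datum_nonneg p) (by positivity)) h.datum_finite
  have h0 : Integrable (ent F0) := ((hw.const_mul _).add M_int).mono'
    (ent_meas h.datum_measurable).aestronglyMeasurable (Filter.Eventually.of_forall fun p => by
      rw [Real.norm_of_nonneg (ent_nonneg h.datum_nonneg p)]
      exact ent_le h.datum_nonneg p)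
  have e0 := ofReal_integral_eq_lintegral_ofReal h0
    (Filter.Eventually.of_forall (ent_nonneg h.datum_nonneg))
  refine ⟨h0, fun t ht => ?_⟩
  have key : (∫⁻ p, ENNReal.ofReal (ent (F t) p)) + ∫⁻ s in Icc 0 t, diss s0 (F s)
      ≤ ENNReal.ofReal (∫ p, ent F0 p) := by
    rw [e0, ← hr, ← hr, ← Measure.restrict_congr_set Ioc_ae_eq_Icc]
    simpa only [(hc _ (hm _)).2.2] using h.entropy t ht
  have f1 := (le_self_add.trans key).trans_lt ENNReal.ofReal_lt_top
  have f2 := (le_add_self.trans key).trans_lt ENNReal.ofReal_lt_top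
  have h1 := int_of (ent_meas (hm t)) (ent_nonneg (h.nonneg t)) f1
  refine ⟨h1, f2, ?_⟩
  have := ENNReal.toReal_mono ENNReal.ofReal_ne_top key
  rwa [ENNReal.toReal_add f1.ne f2.ne, ← ofReal_integral_eq_lintegral_ofReal h1
    (Filter.Eventually.of_forall (ent_nonneg (h.nonneg t))),
    ENNReal.toReal_ofReal (integral_nonneg (ent_nonneg (h.nonneg t))),
    ENNReal.toReal_ofReal (integral_nonneg (ent_nonneg h.datum_nonneg))] at this

end Vale.Agent.P140W36
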